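import Vale.Agent.P248.Final

open MeasureTheory

namespace Vale.Agent.Results.P248.A_full

/-- The symmetric Mahler conjecture with its equality cases, in every dimension. -/
theorem result (n : ℕ) (hn : 1 ≤ n) (K : Set (Fin n → ℝ)) (hcompact : IsCompact K)
    (hconvex : Convex ℝ K) (hint : (interior K).Nonempty) (hsymm : ∀ x ∈ K, -x ∈ K) :
    (4 : ℝ) ^ n / n.factorial ≤
        (volume K).toReal * (volume (Vale.Agent.P248.polar K)).toReal ∧
    ((volume K).toReal * (volume (Vale.Agent.P248.polar K)).toReal = (4 : ℝ) ^ n / n.factorial ↔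
      ∃ H : Set (Fin n → ℝ), Vale.Agent.P248.IsHanner n H ∧
        ∃ T : LinearEquiv (RingHom.id ℝ) (Fin n → ℝ) (Fin n → ℝ), K = T '' H) :=
  Vale.Agent.P248.mahler_main n hn K hcompact hconvex hint hsymm

end Vale.Agent.Results.P248.A_full
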